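import Vale.Agent.P235.ST.H119.Stretch

/-! P235, (ST) O(1): rows r6 + r7 (`bumps`). helper119. -/

namespace Vale.Agent.P235.STO.H119

open SimpleGraph

variable {V : Type} (W : LWorld V)

/-- representative of the component -/
noncomputable def rep (k m : ℕ) (x : V) : V := ((W.Bg k m).connectedComponentMk x).out

theorem rep_eq_iff {k m : ℕ} {x y : V} : rep W k m x = rep W k m y ↔ (W.Bg k m).Reachable x y := by
  unfold rep
  constructor
  · intro h
    have h1 : (W.Bg k m).connectedComponentMk x = (W.Bg k m).connectedComponentMk y := by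
      have h2 := congrArg (W.Bg k m).connectedComponentMk h
      have h3 : ∀ c : (W.Bg k m).ConnectedComponent, (W.Bg k m).connectedComponentMk c.out = c :=
        fun c => Quot.out_eq c
      rwa [h3, h3] at h2
    exact ConnectedComponent.exact h1
  · intro h
    rw [ConnectedComponent.sound h]

open Classical in
/-- the bump -/
noncomputable def T (ρ : V → ℝ) (k m : ℕ) (c : V) (n : ℕ) (x : V) : ℝ :=
  if rep W k m x = c then
    max 0 (min (W.pos k m x : ℝ) (min ((th k : ℝ) - W.pos k m x)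
      (min (2 * 2 ^ k - |(W.D k m x : ℝ) - n * 2 ^ k|)
        (min (4 * dl * ρ x - th k) (2 * th k - d1 * ρ x)))))
  else 0

theorem T_nonneg (ρ : V → ℝ) (k m : ℕ) (c : V) (n : ℕ) (x : V) : 0 ≤ T W ρ k m c n x := by
  unfold T; split_ifs
  · exact le_max_left _ _
  · exact le_rfl

theorem active {ρ : V → ℝ} {k m : ℕ} {c : V} {n : ℕ} {x : V} (h : T W ρ k m c n x ≠ 0) :
    rep W k m x = c ∧ |(W.D k m x : ℝ) - n * 2 ^ k| < 2 * 2 ^ k ∧ (th k : ℝ) < 4 * dl * ρ x ∧
      d1 * ρ x < 2 * th k := by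
  unfold T at h
  split_ifs at h with h1
  · have h2 : 0 < (min (W.pos k m x : ℝ) (min ((th k : ℝ) - W.pos k m x)
      (min (2 * 2 ^ k - |(W.D k m x : ℝ) - n * 2 ^ k|)
        (min (4 * dl * ρ x - th k) (2 * th k - d1 * ρ x))))) := by
      by_contra hc
      exact h (max_eq_left (not_lt.1 hc))
    rw [lt_min_iff, lt_min_iff, lt_min_iff, lt_min_iff] at h2
    exact ⟨h1, by linarith [h2.2.2.1], by linarith [h2.2.2.2.1], by linarith [h2.2.2.2.2]⟩
  · exact absurd rfl h

theorem T_le {ρ : V → ℝ} {k m : ℕ} {c : V} {n : ℕ} {x : V} : T W ρ k m c n x ≤ 2 * 2 ^ k := by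
  unfold T; split_ifs
  · refine max_le (by positivity) ?_
    refine (min_le_right _ _).trans ((min_le_right _ _).trans ((min_le_left _ _).trans ?_))
    linarith [abs_nonneg ((W.D k m x : ℝ) - n * 2 ^ k)]
  · positivity

theorem min_lip {a b c d e : ℝ} (h1 : |a - c| ≤ e) (h2 : |b - d| ≤ e) :
    |min a b - min c d| ≤ e :=
  (abs_min_sub_min_le_max a b c d).trans (max_le h1 h2)

theorem max0_lip {a c e : ℝ} (h1 : |a - c| ≤ e) : |max 0 a - max 0 c| ≤ e := by
  have h0 : 0 ≤ e := (abs_nonneg _).trans h1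
  refine (abs_max_sub_max_le_max 0 a 0 c).trans (max_le (by simpa using h0) h1)

theorem T_adj_other {ρ : V → ℝ} {k m : ℕ} {c : V} {n : ℕ} {x y : V} (hxy : W.G.Adj x y)
    (hb : W.bi k m x ≠ W.bi k m y) : T W ρ k m c n x ≤ 1 := by
  have h1 : W.pos k m x < 1 ∨ 16 * 2 ^ k ≤ W.pos k m x + 1 := by
    by_contra hc
    rw [not_or, not_lt, not_le] at hc
    have h2 := pos_near W (x := x) (y := y) (k := k) (m := m) (lo := W.pos k m x)
      (hi := W.pos k m x) (e := 1) le_rfl le_rfl (by rw [abs_sub_comm, W.unit x y hxy])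
      (by linarith [hc.1]) (by linarith [hc.2])
    exact hb h2.1.symm
  unfold T; split_ifs
  · refine max_le (by norm_num) ?_
    rcases h1 with h1 | h1
    · refine (min_le_left _ _).trans ?_
      exact_mod_cast h1.le
    · refine (min_le_right _ _).trans ((min_le_left _ _).trans ?_)
      have h2 : th k - W.pos k m x ≤ 1 := by unfold th; linarith
      exact_mod_cast h2
  · norm_num

theorem T_lip {ρ : V → ℝ} (hρ : W.Scale ρ) [Finite V] {k m : ℕ} {c : V} {n : ℕ} {x y : V}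
    (hxy : W.G.Adj x y) : |T W ρ k m c n x - T W ρ k m c n y| ≤ 1 := by
  by_cases hb : W.bi k m x = W.bi k m y
  · have hadj : (W.Bg k m).Adj x y := ⟨hxy, hb⟩
    have hrep : rep W k m x = rep W k m y := (rep_eq_iff W).2 hadj.reachable
    unfold T
    rw [← hrep]
    split_ifs
    · have hu : |(W.u x : ℝ) - W.u y| = 1 := by exact_mod_cast W.unit x y hxy
      have hpos : (W.pos k m x : ℝ) - W.pos k m y = (W.u x : ℝ) - W.u y := by
        have e1 := Int.emod_add_mul_ediv (W.u x + m * 2 ^ k) (th k)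
        have e2 := Int.emod_add_mul_ediv (W.u y + m * 2 ^ k) (th k)
        unfold LWorld.bi at hb
        rw [hb] at e1
        have : W.pos k m x - W.pos k m y = W.u x - W.u y := by
          unfold LWorld.pos; linarith
        exact_mod_cast this
      have hdist : (W.Bg k m).dist x y ≤ 1 := by
        have := SimpleGraph.dist_le (Walk.cons hadj Walk.nil)
        simpa using this
      have hD : |(W.D k m x : ℝ) - W.D k m y| ≤ 1 := by
        have h1 := D_lip W k m hadj.reachable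
        have h2 := D_lip W k m hadj.reachable.symm
        rw [SimpleGraph.dist_comm] at h2
        have h3 : (W.D k m y : ℝ) ≤ W.D k m x + 1 := by
          have : (W.D k m y : ℤ) ≤ W.D k m x + 1 := by
            have : ((W.Bg k m).dist x y : ℤ) ≤ 1 := by exact_mod_cast hdist
            linarith
          exact_mod_cast this
        have h4 : (W.D k m x : ℝ) ≤ W.D k m y + 1 := by
          have : (W.D k m x : ℤ) ≤ W.D k m y + 1 := by
            have : ((W.Bg k m).dist x y : ℤ) ≤ 1 := by exact_mod_cast hdist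
            linarith
          exact_mod_cast this
        rw [abs_le]; constructor <;> linarith
      have hr : |ρ x - ρ y| ≤ 2 ^ 22 := by
        have h1 := hρ.lip x y
        have h2 : W.d x y = 1 := by
          unfold LWorld.d
          rw [SimpleGraph.dist_eq_one_iff_adj.2 hxy]; norm_num
        rw [h2] at h1
        unfold kap at h1
        norm_num at h1 ⊢
        exact h1
      rw [abs_le] at hr
      refine max0_lip (min_lip ?_ (min_lip ?_ (min_lip ?_ (min_lip ?_ ?_))))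
      · rw [hpos, hu]
      · rw [show (th k : ℝ) - W.pos k m x - ((th k : ℝ) - W.pos k m y) =
          -((W.pos k m x : ℝ) - W.pos k m y) by ring, abs_neg, hpos, hu]
      · have h1 : |(|(W.D k m y : ℝ) - n * 2 ^ k|) - (|(W.D k m x : ℝ) - n * 2 ^ k|)| ≤
            |((W.D k m y : ℝ) - n * 2 ^ k) - ((W.D k m x : ℝ) - n * 2 ^ k)| :=
          abs_abs_sub_abs_le _ _
        rw [show (2 * 2 ^ k - |(W.D k m x : ℝ) - n * 2 ^ k| -
          (2 * 2 ^ k - |(W.D k m y : ℝ) - n * 2 ^ k|)) =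
          (|(W.D k m y : ℝ) - n * 2 ^ k|) - (|(W.D k m x : ℝ) - n * 2 ^ k|) by ring]
        refine h1.trans ?_
        rw [show ((W.D k m y : ℝ) - n * 2 ^ k) - ((W.D k m x : ℝ) - n * 2 ^ k) =
          -((W.D k m x : ℝ) - W.D k m y) by ring, abs_neg]
        exact hD
      · unfold dl
        rw [abs_le]
        constructor <;> norm_num at hr ⊢ <;> linarith [hr.1, hr.2]
      · unfold d1
        rw [abs_le]
        constructor <;> norm_num at hr ⊢ <;> linarith [hr.1, hr.2]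
    · simp
  · have h1 := T_adj_other W (ρ := ρ) (c := c) (n := n) hxy hb
    have h2 := T_adj_other W (ρ := ρ) (c := c) (n := n) hxy.symm (Ne.symm hb)
    have h3 := T_nonneg W ρ k m c n x
    have h4 := T_nonneg W ρ k m c n y
    rw [abs_le]; constructor <;> linarith

/-! ### counting -/

theorem card_k (K0 : ℕ) (r : ℝ) :
    (Finset.univ.filter (fun k : Fin K0 => (th k : ℝ) < 4 * dl * r ∧ d1 * r < 2 * th k)).card
      ≤ 78 := by
  classical
  set S := Finset.univ.filter (fun k : Fin K0 => (th k : ℝ) < 4 * dl * r ∧ d1 * r < 2 * th k)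
    with hS
  rcases S.eq_empty_or_nonempty with he | hne
  · rw [he]; simp
  · set k0 := S.min' hne with hk0
    have hk0S : k0 ∈ S := S.min'_mem hne
    have hsub : ∀ k ∈ S, (k : ℕ) ∈ Finset.Ico (k0 : ℕ) (k0 + 78) := by
      intro k hk
      rw [Finset.mem_Ico]
      refine ⟨by exact_mod_cast S.min'_le k hk, ?_⟩
      have h1 := (Finset.mem_filter.1 hk).2.1
      have h2 := (Finset.mem_filter.1 hk0S).2.2
      have h3 : (2 : ℝ) ^ (k : ℕ) < 2 ^ ((k0 : ℕ) + 78) := by
        unfold th at h1 h2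
        push_cast at h1 h2
        unfold dl at h1
        unfold d1 at h2
        rw [pow_add]
        norm_num at h1 h2 ⊢
        linarith
      exact (pow_lt_pow_iff_right₀ (by norm_num : (1 : ℝ) < 2)).1 h3
    calc S.card ≤ (Finset.Ico (k0 : ℕ) (k0 + 78)).card :=
          Finset.card_le_card_of_injOn (fun k => (k : ℕ)) hsub (fun a _ b _ h => Fin.ext h)
      _ = 78 := by simp

theorem card_n (NN : ℕ) (k D : ℕ) :
    (Finset.univ.filter (fun n : Fin NN => |(D : ℝ) - (n : ℕ) * 2 ^ k| < 2 * 2 ^ k)).card ≤ 4 := by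
  classical
  set q := D / 2 ^ k with hq
  have hP : 0 < 2 ^ k := by positivity
  have h1 : 2 ^ k * q + D % 2 ^ k = D := Nat.div_add_mod D (2 ^ k)
  have h2 : D % 2 ^ k < 2 ^ k := Nat.mod_lt _ hP
  have hsub : ∀ n ∈ Finset.univ.filter (fun n : Fin NN => |(D : ℝ) - (n : ℕ) * 2 ^ k| < 2 * 2 ^ k),
      (n : ℕ) ∈ Finset.Icc (q - 1) (q + 2) := by
    intro n hn
    have h3 := (Finset.mem_filter.1 hn).2
    rw [abs_lt] at h3
    have h4 : ((n : ℕ) : ℝ) * 2 ^ k < D + 2 * 2 ^ k := by linarith [h3.1]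
    have h5 : (D : ℝ) < (n : ℕ) * 2 ^ k + 2 * 2 ^ k := by linarith [h3.2]
    have h4' : (n : ℕ) * 2 ^ k < D + 2 * 2 ^ k := by exact_mod_cast h4
    have h5' : D < (n : ℕ) * 2 ^ k + 2 * 2 ^ k := by exact_mod_cast h5
    rw [Finset.mem_Icc]
    constructor
    · have : q < (n : ℕ) + 2 := by
        by_contra hc
        rw [not_lt] at hc
        have h6 := Nat.mul_le_mul_left (2 ^ k) hc
        have h7 : 2 ^ k * ((n : ℕ) + 2) = (n : ℕ) * 2 ^ k + 2 * 2 ^ k := by ring
        have h8 := Nat.zero_le (D % 2 ^ k)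
        linarith
      omega
    · have : (n : ℕ) < q + 3 := by
        by_contra hc
        rw [not_lt] at hc
        have := Nat.mul_le_mul_left (2 ^ k) hc
        nlinarith
      omega
  calc _ ≤ (Finset.Icc (q - 1) (q + 2)).card :=
        Finset.card_le_card_of_injOn (fun n : Fin NN => (n : ℕ)) hsub (fun a _ b _ h => Fin.ext h)
    _ ≤ 4 := by rw [Nat.card_Icc]; omega

/-- index type -/
abbrev Idx (V : Type) (K0 NN : ℕ) : Type := Fin K0 × Fin 16 × V × Fin NN

variable [Fintype V]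

theorem card_active (ρ : V → ℝ) (K0 NN : ℕ) (x : V) :
    (Finset.univ.filter (fun i : Idx V K0 NN =>
      T W ρ (i.1 : ℕ) (i.2.1 : ℕ) i.2.2.1 (i.2.2.2 : ℕ) x ≠ 0)).card ≤ 4992 := by
  classical
  set S := Finset.univ.filter (fun k : Fin K0 => (th k : ℝ) < 4 * dl * ρ x ∧
    d1 * ρ x < 2 * th k) with hS
  have hsub : Finset.univ.filter (fun i : Idx V K0 NN =>
      T W ρ (i.1 : ℕ) (i.2.1 : ℕ) i.2.2.1 (i.2.2.2 : ℕ) x ≠ 0) ⊆
      (S ×ˢ (Finset.univ : Finset (Fin 16))).biUnion (fun km =>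
        (Finset.univ.filter (fun n : Fin NN =>
          |(W.D (km.1 : ℕ) (km.2 : ℕ) x : ℝ) - (n : ℕ) * 2 ^ (km.1 : ℕ)| <
            2 * 2 ^ (km.1 : ℕ))).image
          (fun n => ((km.1, km.2, rep W (km.1 : ℕ) (km.2 : ℕ) x, n) : Idx V K0 NN))) := by
    rintro ⟨k, m, c, n⟩ hi
    obtain ⟨h1, h2, h3, h4⟩ := active W (Finset.mem_filter.1 hi).2
    rw [Finset.mem_biUnion]
    refine ⟨(k, m), ?_, ?_⟩
    · rw [Finset.mem_product]
      exact ⟨Finset.mem_filter.2 ⟨Finset.mem_univ _, h3, h4⟩, Finset.mem_univ _⟩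
    · rw [Finset.mem_image]
      refine ⟨n, Finset.mem_filter.2 ⟨Finset.mem_univ _, h2⟩, ?_⟩
      have h1' : rep W (k : ℕ) (m : ℕ) x = c := h1
      simp only
      rw [h1']
  refine (Finset.card_le_card hsub).trans ?_
  refine (Finset.card_biUnion_le_card_mul _ _ 4 ?_).trans ?_
  · rintro ⟨k, m⟩ _
    exact Finset.card_image_le.trans (card_n NN k _)
  · rw [Finset.card_product]
    have h1 := card_k K0 (ρ x)
    have h2 : (Finset.univ : Finset (Fin 16)).card = 16 := by simp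
    rw [h2]
    have h3 : S.card ≤ 78 := h1
    omega

theorem edge_sum {ρ : V → ℝ} (hρ : W.Scale ρ) (K0 NN : ℕ) {x y : V} (hxy : W.G.Adj x y) :
    ∑ i : Idx V K0 NN, |T W ρ (i.1 : ℕ) (i.2.1 : ℕ) i.2.2.1 (i.2.2.2 : ℕ) x -
      T W ρ (i.1 : ℕ) (i.2.1 : ℕ) i.2.2.1 (i.2.2.2 : ℕ) y| ≤ Cf := by
  classical
  have h1 : ∀ i : Idx V K0 NN, |T W ρ (i.1 : ℕ) (i.2.1 : ℕ) i.2.2.1 (i.2.2.2 : ℕ) x -
      T W ρ (i.1 : ℕ) (i.2.1 : ℕ) i.2.2.1 (i.2.2.2 : ℕ) y| ≤
      (if T W ρ (i.1 : ℕ) (i.2.1 : ℕ) i.2.2.1 (i.2.2.2 : ℕ) x ≠ 0 then (1 : ℝ) else 0) +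
      (if T W ρ (i.1 : ℕ) (i.2.1 : ℕ) i.2.2.1 (i.2.2.2 : ℕ) y ≠ 0 then (1 : ℝ) else 0) := by
    intro i
    have h2 := T_lip W hρ (k := i.1) (m := i.2.1) (c := i.2.2.1) (n := i.2.2.2) hxy
    by_cases hx : T W ρ (i.1 : ℕ) (i.2.1 : ℕ) i.2.2.1 (i.2.2.2 : ℕ) x = 0 <;>
      by_cases hy : T W ρ (i.1 : ℕ) (i.2.1 : ℕ) i.2.2.1 (i.2.2.2 : ℕ) y = 0
    · rw [hx, hy]; simp
    · simp only [hx, hy, ne_eq, not_true_eq_false, not_false_eq_true, if_true, if_false]
      rw [hx] at h2; linarith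
    · simp only [hx, hy, ne_eq, not_true_eq_false, not_false_eq_true, if_true, if_false]
      rw [hy] at h2; linarith
    · simp only [hx, hy, ne_eq, not_false_eq_true, if_true]
      linarith
  refine (Finset.sum_le_sum (fun i _ => h1 i)).trans ?_
  rw [Finset.sum_add_distrib, Finset.sum_boole, Finset.sum_boole]
  have h3 := card_active W ρ K0 NN x
  have h4 := card_active W ρ K0 NN y
  have h3' : ((Finset.univ.filter (fun i : Idx V K0 NN =>
      T W ρ (i.1 : ℕ) (i.2.1 : ℕ) i.2.2.1 (i.2.2.2 : ℕ) x ≠ 0)).card : ℝ) ≤ 4992 := by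
    exact_mod_cast h3
  have h4' : ((Finset.univ.filter (fun i : Idx V K0 NN =>
      T W ρ (i.1 : ℕ) (i.2.1 : ℕ) i.2.2.1 (i.2.2.2 : ℕ) y ≠ 0)).card : ℝ) ≤ 4992 := by
    exact_mod_cast h4
  unfold Cf
  norm_num
  linarith

theorem size_sum {ρ : V → ℝ} (hρ : W.Scale ρ) (K0 NN : ℕ) (x : V) :
    ∑ i : Idx V K0 NN, |T W ρ (i.1 : ℕ) (i.2.1 : ℕ) i.2.2.1 (i.2.2.2 : ℕ) x| ≤ ρ x := by
  classical
  have hr := hρ.nonneg x
  have h1 : ∀ i : Idx V K0 NN, |T W ρ (i.1 : ℕ) (i.2.1 : ℕ) i.2.2.1 (i.2.2.2 : ℕ) x| ≤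
      (if T W ρ (i.1 : ℕ) (i.2.1 : ℕ) i.2.2.1 (i.2.2.2 : ℕ) x ≠ 0 then (1 : ℝ) else 0) *
        (dl / 2 * ρ x) := by
    intro i
    split_ifs with hx
    · obtain ⟨-, -, h3, -⟩ := active W hx
      rw [abs_of_nonneg (T_nonneg W _ _ _ _ _ _), one_mul]
      refine (T_le W).trans ?_
      unfold th at h3
      push_cast at h3
      linarith
    · rw [not_not] at hx
      rw [hx]; simp
  refine (Finset.sum_le_sum (fun i _ => h1 i)).trans ?_
  rw [← Finset.sum_mul, Finset.sum_boole]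
  have h3' : ((Finset.univ.filter (fun i : Idx V K0 NN =>
      T W ρ (i.1 : ℕ) (i.2.1 : ℕ) i.2.2.1 (i.2.2.2 : ℕ) x ≠ 0)).card : ℝ) ≤ 4992 := by
    exact_mod_cast card_active W ρ K0 NN x
  have h5 : 0 ≤ dl / 2 * ρ x := by unfold dl; positivity
  refine (mul_le_mul_of_nonneg_right h3' h5).trans ?_
  unfold dl
  norm_num
  linarith

/-- separation by one bump -/
theorem sep_bump {ρ : V → ℝ} {k m : ℕ} {z y : V} {s : ℝ}
    (hmid : W.mid k m z) (hin : inList (ρ z) k)
    (h : ¬ (W.Bg k m).Reachable z y ∨ s ≤ (W.D k m y : ℝ) - W.D k m z) :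
    min (2 ^ k) s ≤ |T W ρ k m (rep W k m z) (W.D k m z / 2 ^ k) z -
      T W ρ k m (rep W k m z) (W.D k m z / 2 ^ k) y| := by
  set n := W.D k m z / 2 ^ k with hn
  have hP : (0 : ℝ) < 2 ^ k := by positivity
  have hP' : 0 < 2 ^ k := by positivity
  have h1 : 2 ^ k * n + W.D k m z % 2 ^ k = W.D k m z := Nat.div_add_mod _ (2 ^ k)
  have h2 : W.D k m z % 2 ^ k < 2 ^ k := Nat.mod_lt _ hP'
  have h3 : (n : ℝ) * 2 ^ k ≤ W.D k m z := by
    have : n * 2 ^ k ≤ W.D k m z := by rw [mul_comm]; omega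
    exact_mod_cast this
  have h4 : (W.D k m z : ℝ) < n * 2 ^ k + 2 ^ k := by
    have : W.D k m z < n * 2 ^ k + 2 ^ k := by rw [mul_comm]; omega
    exact_mod_cast this
  have hth : (th k : ℝ) = 16 * 2 ^ k := by unfold th; push_cast; ring
  obtain ⟨hm1, hm2⟩ := hmid
  have hm1' : (4 : ℝ) * 2 ^ k ≤ W.pos k m z := by exact_mod_cast hm1
  have hm2' : (W.pos k m z : ℝ) ≤ 12 * 2 ^ k := by exact_mod_cast hm2
  obtain ⟨hi1, hi2⟩ := hin
  rw [hth] at hi1 hi2
  have hz : T W ρ k m (rep W k m z) n z = 2 * 2 ^ k - ((W.D k m z : ℝ) - n * 2 ^ k) := by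
    unfold T
    rw [if_pos rfl, abs_of_nonneg (by linarith : (0 : ℝ) ≤ (W.D k m z : ℝ) - n * 2 ^ k), hth]
    rw [min_eq_left (a := 2 * 2 ^ k - ((W.D k m z : ℝ) - n * 2 ^ k))]
    · rw [min_eq_right, min_eq_right, max_eq_right]
      · linarith
      · linarith
      · refine (min_le_right _ _).trans ?_
        linarith
    · refine le_min ?_ ?_ <;> linarith
  rcases h with h | h
  · have hy : T W ρ k m (rep W k m z) n y = 0 := by
      unfold T
      rw [if_neg]
      intro hc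
      exact h ((rep_eq_iff W).1 hc.symm)
    rw [hy, sub_zero, hz]
    refine (min_le_left _ _).trans (le_trans ?_ (le_abs_self _))
    linarith
  · have hy : T W ρ k m (rep W k m z) n y ≤ max 0 (2 * 2 ^ k - ((W.D k m y : ℝ) - n * 2 ^ k)) := by
      unfold T
      split_ifs
      · refine max_le_max le_rfl ?_
        refine (min_le_right _ _).trans ((min_le_right _ _).trans ((min_le_left _ _).trans ?_))
        linarith [le_abs_self ((W.D k m y : ℝ) - n * 2 ^ k)]
      · exact le_max_left _ _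
    refine le_trans ?_ (le_abs_self _)
    rw [hz]
    rcases max_cases (0 : ℝ) (2 * 2 ^ k - ((W.D k m y : ℝ) - n * 2 ^ k)) with ⟨h5, -⟩ | ⟨h5, -⟩
    · rw [h5] at hy
      refine (min_le_left _ _).trans ?_
      linarith
    · rw [h5] at hy
      refine (min_le_right _ _).trans ?_
      linarith

/-- powers of two in a real window -/
theorem exists_k {X : ℝ} (h : 16 ≤ X) : ∃ k : ℕ, (th k : ℝ) ≤ X ∧ X < 2 * (th k : ℝ) := by
  obtain ⟨k, h1, h2⟩ := exists_nat_pow_near (x := X / 16) (y := 2) (by linarith) (by norm_num)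
  refine ⟨k, ?_, ?_⟩
  · unfold th; push_cast; linarith
  · unfold th; push_cast; rw [pow_succ] at h2; linarith

/-- a good clock for a target pair -/
theorem good_clock {ρ : V → ℝ} {z y : V} (h : W.tgt ρ z y) :
    ∃ k m, m < 16 ∧ W.mid k m z ∧ inList (ρ z) k ∧
      ∃ s : ℝ, (¬ (W.Bg k m).Reachable z y ∨ s ≤ (W.D k m y : ℝ) - W.D k m z) ∧
        1 / 2 ^ 32 * W.d z y ≤ min (2 ^ k) s := by
  obtain ⟨hz, hy, hu, hi, hr0, hnx, hdρ, hcase⟩ := h
  have hr0' : (2 : ℝ) ^ 90 ≤ W.d z y := hr0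
  -- thick clocks serve by (T)
  have key : ∀ k, inList (ρ z) k → (th k : ℝ) ≤ W.d z y / 4 → W.d z y ≤ 2 ^ 28 * (th k : ℝ) →
      ∃ k m, m < 16 ∧ W.mid k m z ∧ inList (ρ z) k ∧
      ∃ s : ℝ, (¬ (W.Bg k m).Reachable z y ∨ s ≤ (W.D k m y : ℝ) - W.D k m z) ∧
        1 / 2 ^ 32 * W.d z y ≤ min (2 ^ k) s := by
    intro k hin h1 h2
    obtain ⟨m, hm, hmid⟩ := exists_mid W k z
    refine ⟨k, m, hm, hmid, hin, W.d z y / 2, ?_, ?_⟩
    · by_cases hR : (W.Bg k m).Reachable z y
      · right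
        have h3 := D_T W k m hz hy hR hi
        have h4 : (W.D k m z : ℝ) + (W.Bg k m).dist z y ≤ W.D k m y + 2 * th k := by
          exact_mod_cast h3
        have h5 : W.d z y ≤ ((W.Bg k m).dist z y : ℝ) := by
          unfold LWorld.d; exact_mod_cast (bi_of_reach W k m hR).2
        linarith
      · left; exact hR
    · refine le_min ?_ ?_
      · have h3 : (th k : ℝ) = 16 * 2 ^ k := by unfold th; push_cast; ring
        rw [h3] at h2
        norm_num at h2 ⊢
        linarith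
      · norm_num
        linarith
  have hhalf : ∀ k : ℕ, (0 : ℝ) < th k := fun k => by exact_mod_cast th_pos k
  by_cases hbig : kap * ρ z < 2 * W.d z y
  · have h1 : (16 : ℝ) ≤ dl * ρ z := by
      unfold dl
      norm_num at hr0' ⊢
      linarith
    obtain ⟨k, h2, h3⟩ := exists_k h1
    refine key k ⟨?_, h2⟩ ?_ ?_
    · unfold dl at h3
      unfold d1
      have : 0 ≤ ρ z := by linarith [d_nonneg W z y]
      norm_num at h3 ⊢
      linarith
    · unfold dl at h2
      unfold kap at hbig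
      norm_num at h2 hbig ⊢
      linarith
    · unfold dl at h3
      norm_num at h3 ⊢
      linarith
  · rcases hcase with hc | ⟨k, m, hm, hin, hmid, hsv⟩
    · exact absurd hc hbig
    · rw [not_lt] at hbig
      by_cases hk : W.d z y / 16 ≤ th k
      · refine ⟨k, m, hm, hmid, hin, cp * W.d z y, hsv, ?_⟩
        refine le_min ?_ ?_
        · have h3 : (th k : ℝ) = 16 * 2 ^ k := by unfold th; push_cast; ring
          rw [h3] at hk
          norm_num at hk ⊢
          linarith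
        · unfold cp
          norm_num
          linarith
      · rw [not_le] at hk
        have h1 : (16 : ℝ) ≤ W.d z y / 8 := by
          norm_num at hr0' ⊢
          linarith
        obtain ⟨k', h2, h3⟩ := exists_k h1
        refine key k' ⟨?_, ?_⟩ ?_ ?_
        · linarith [hin.1]
        · unfold kap at hbig
          unfold dl
          norm_num at hbig ⊢
          linarith
        · linarith
        · norm_num
          linarith [hhalf k']

/-- rows r6 + r7 -/
theorem bumps {ρ : V → ℝ} (h : W.Scale ρ) : ∃ (ι : Type) (_ : Fintype ι) (T : ι → V → ℝ),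
    (∀ x y, W.G.Adj x y → ∑ i, |T i x - T i y| ≤ Cf) ∧ (∀ x, ∑ i, |T i x| ≤ ρ x) ∧
    ∀ z y, W.tgt ρ z y → ∃ i, 1 / 2 ^ 32 * W.d z y ≤ |T i z - T i y| := by
  classical
  -- bound for the thickness index
  obtain ⟨K0, hK0⟩ : ∃ K0 : ℕ, ∀ x k, inList (ρ x) k → k < K0 := by
    obtain ⟨K0, hK0⟩ := exists_nat_gt (∑ x, ρ x)
    refine ⟨K0, fun x k hin => ?_⟩
    have h1 : ρ x ≤ ∑ x, ρ x := Finset.single_le_sum (fun x _ => h.nonneg x) (Finset.mem_univ x)
    have h2 : (th k : ℝ) ≤ ρ x := by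
      refine hin.2.trans ?_
      have := h.nonneg x
      unfold dl
      norm_num
      linarith
    have h3 : (th k : ℝ) = 16 * 2 ^ k := by unfold th; push_cast; ring
    have h4 : (k : ℝ) < 2 ^ k := by exact_mod_cast Nat.lt_two_pow_self
    have h5 : (k : ℝ) < K0 := by
      have : (0 : ℝ) < 2 ^ k := by positivity
      linarith
    exact_mod_cast h5
  -- bound for the cell index
  obtain ⟨NN, hNN⟩ : ∃ NN : ℕ, ∀ (k : Fin K0) (m : Fin 16) (x : V), W.D k m x < NN := by
    refine ⟨(∑ i : Fin K0 × Fin 16 × V, W.D i.1 i.2.1 i.2.2) + 1, fun k m x => ?_⟩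
    have := Finset.single_le_sum (f := fun i : Fin K0 × Fin 16 × V => W.D i.1 i.2.1 i.2.2)
      (fun i _ => Nat.zero_le _) (Finset.mem_univ (k, m, x))
    simp only at this
    omega
  refine ⟨Idx V K0 NN, inferInstance,
    fun i x => T W ρ (i.1 : ℕ) (i.2.1 : ℕ) i.2.2.1 (i.2.2.2 : ℕ) x,
    fun x y hxy => edge_sum W h K0 NN hxy, fun x => size_sum W h K0 NN x, fun z y hzy => ?_⟩
  obtain ⟨k, m, hm, hmid, hin, s, hs, hd⟩ := good_clock W hzy
  have hk := hK0 z k hin
  have hn : W.D k m z / 2 ^ k < NN :=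
    lt_of_le_of_lt (Nat.div_le_self _ _) (hNN ⟨k, hk⟩ ⟨m, hm⟩ z)
  exact ⟨(⟨k, hk⟩, ⟨m, hm⟩, rep W k m z, ⟨_, hn⟩), hd.trans (sep_bump W hmid hin hs)⟩

end Vale.Agent.P235.STO.H119
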