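import Vale.Agent.P235.ST.H317.Defs

/-! P235, (ST) O(1): rows r1 (part) and r2: the clock inequalities `D_lip`, `D_T`, `D_M`. helper119. -/

namespace Vale.Agent.P235.STO.H119

open SimpleGraph

variable {V : Type} (W : LWorld V)

theorem Bg_le (k m : ℕ) : W.Bg k m ≤ W.G := fun _ _ h => h.1

theorem abs_u_le {x y : V} (g : W.G.Walk x y) : |W.u x - W.u y| ≤ (g.length : ℤ) := by
  induction g with
  | nil => simp
  | @cons a b c h p ih =>
    have h1 := W.unit a b h
    have h2 : |W.u a - W.u c| ≤ |W.u a - W.u b| + |W.u b - W.u c| := abs_sub_le _ _ _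
    rw [Walk.length_cons]
    push_cast
    linarith

theorem abs_u_le_dist {k m : ℕ} {x y : V} (h : (W.Bg k m).Reachable x y) :
    |W.u x - W.u y| ≤ ((W.Bg k m).dist x y : ℤ) := by
  obtain ⟨g, hg⟩ := h.exists_walk_length_eq_dist
  have := abs_u_le W (g.mapLe (Bg_le W k m))
  rw [Walk.length_map, hg] at this
  exact this

theorem th_pos (k : ℕ) : 0 < th k := by unfold th; positivity

theorem bi_mono {k m : ℕ} {x y : V} (h : W.u x ≤ W.u y) : W.bi k m x ≤ W.bi k m y := by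
  unfold LWorld.bi
  exact Int.ediv_le_ediv (th_pos k) (by linarith)

theorem bi_eq_of_walk {k m : ℕ} {x y : V} (g : (W.Bg k m).Walk x y) :
    W.bi k m x = W.bi k m y := by
  induction g with
  | nil => rfl
  | cons h p ih => exact h.2.trans ih

theorem bi_of_reach' {k m : ℕ} {x y : V} (h : (W.Bg k m).Reachable x y) :
    W.bi k m x = W.bi k m y := by
  obtain ⟨g⟩ := h
  exact bi_eq_of_walk W g

theorem abs_lt_of_bi {k m : ℕ} {x y : V} (h : W.bi k m x = W.bi k m y) :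
    |W.u x - W.u y| < th k := by
  unfold LWorld.bi at h
  have hp := th_pos k
  have h1 := Int.emod_add_mul_ediv (W.u x + m * 2 ^ k) (th k)
  have h2 := Int.emod_add_mul_ediv (W.u y + m * 2 ^ k) (th k)
  have h3 := Int.emod_nonneg (W.u x + m * 2 ^ k) hp.ne'
  have h4 := Int.emod_lt_of_pos (W.u x + m * 2 ^ k) hp
  have h5 := Int.emod_nonneg (W.u y + m * 2 ^ k) hp.ne'
  have h6 := Int.emod_lt_of_pos (W.u y + m * 2 ^ k) hp
  rw [h] at h1
  rw [abs_lt]
  constructor <;> linarith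

theorem reach_of_walk' (k m : ℕ) {x y : V} (g : W.G.Walk x y)
    (h : ∀ z ∈ g.support, W.bi k m z = W.bi k m x) :
    (W.Bg k m).Reachable x y ∧ (W.Bg k m).dist x y ≤ g.length := by
  have : ∃ g' : (W.Bg k m).Walk x y, g'.length = g.length := by
    induction g with
    | nil => exact ⟨Walk.nil, rfl⟩
    | @cons a b c hab p ih =>
      have hb : W.bi k m b = W.bi k m a := h b (by simp)
      obtain ⟨g', hg'⟩ := ih (fun z hz => (h z (by simp [hz])).trans hb.symm)
      exact ⟨Walk.cons (show (W.Bg k m).Adj a b from ⟨hab, hb.symm⟩) g', by simp [hg']⟩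
  obtain ⟨g', hg'⟩ := this
  exact ⟨⟨g'⟩, hg' ▸ SimpleGraph.dist_le g'⟩

theorem u_between {a b z : V} (g : W.G.Walk a b) (hl : (g.length : ℤ) = W.u b - W.u a)
    (hz : z ∈ g.support) : W.u a ≤ W.u z ∧ W.u z ≤ W.u b := by
  classical
  have h1 := abs_u_le W (g.takeUntil z hz)
  have h2 := abs_u_le W (g.dropUntil z hz)
  have h3 : ((g.takeUntil z hz).length : ℤ) + (g.dropUntil z hz).length = g.length := by
    have := congrArg Walk.length (g.take_spec hz)
    rw [Walk.length_append] at this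
    exact_mod_cast this
  rw [abs_le] at h1 h2
  constructor <;> linarith [h1.1, h1.2, h2.1, h2.2]

theorem reach_of_L_aux (k m : ℕ) {p a b : V} (hp : p ∈ W.N) (ha : a ∈ W.L p) (hb : b ∈ W.L p)
    (h : W.bi k m a = W.bi k m b) (hab : W.u a ≤ W.u b) :
    (W.Bg k m).Reachable a b ∧ ((W.Bg k m).dist a b : ℤ) ≤ W.u b - W.u a := by
  obtain ⟨g, hg, -⟩ := W.L_path p hp a ha b hb hab
  have := reach_of_walk' W k m g (fun z hz => by
    have hb := u_between W g hg hz
    exact le_antisymm (h ▸ bi_mono W hb.2) (bi_mono W hb.1))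
  refine ⟨this.1, ?_⟩
  rw [← hg]
  exact_mod_cast this.2

theorem reach_of_L' (k m : ℕ) {p a b : V} (hp : p ∈ W.N) (ha : a ∈ W.L p) (hb : b ∈ W.L p)
    (h : W.bi k m a = W.bi k m b) :
    (W.Bg k m).Reachable a b ∧ ((W.Bg k m).dist a b : ℤ) ≤ |W.u a - W.u b| := by
  rcases le_total (W.u a) (W.u b) with hab | hab
  · obtain ⟨h1, h2⟩ := reach_of_L_aux W k m hp ha hb h hab
    exact ⟨h1, h2.trans (by rw [abs_sub_comm]; exact le_abs_self _)⟩
  · obtain ⟨h1, h2⟩ := reach_of_L_aux W k m hp hb ha h.symm hab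
    exact ⟨h1.symm, by rw [SimpleGraph.dist_comm]; exact h2.trans (le_abs_self _)⟩

/-! ### r2 -/

theorem src_eq {k m : ℕ} {x y : V} (h : (W.Bg k m).Reachable x y) :
    W.src k m x = W.src k m y := by
  unfold LWorld.src
  ext z
  constructor
  · rintro ⟨h1, h2, h3⟩
    exact ⟨h.symm.trans h1, h2, fun w hw hyw => h3 w hw (h.trans hyw)⟩
  · rintro ⟨h1, h2, h3⟩
    exact ⟨h.trans h1, h2, fun w hw hxw => h3 w hw (h.symm.trans hxw)⟩

theorem D_le {k m : ℕ} {x y : V} (hy : y ∈ W.src k m x) : W.D k m x ≤ (W.Bg k m).dist x y :=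
  Nat.sInf_le ⟨y, hy, rfl⟩

theorem exists_D {k m : ℕ} {x : V} (h : (W.src k m x).Nonempty) :
    ∃ y ∈ W.src k m x, W.D k m x = (W.Bg k m).dist x y := by
  obtain ⟨y, hy⟩ := h
  have := Nat.sInf_mem (s := {n | ∃ y ∈ W.src k m x, n = (W.Bg k m).dist x y}) ⟨_, y, hy, rfl⟩
  exact this

theorem src_nonempty {k m : ℕ} {x : V} (hx : x ∈ W.N) : (W.src k m x).Nonempty := by
  have hne : {n | ∃ y ∈ W.N, (W.Bg k m).Reachable x y ∧ n = W.idx y}.Nonempty :=
    ⟨_, x, hx, Reachable.refl x, rfl⟩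
  obtain ⟨y, hy, hr, he⟩ := Nat.sInf_mem hne
  refine ⟨y, hr, hy, fun z hz hxz => ?_⟩
  rw [← he]
  exact Nat.sInf_le ⟨z, hz, hxz, rfl⟩

theorem dist_tri {k m : ℕ} {x y z : V} (h1 : (W.Bg k m).Reachable x y)
    (h2 : (W.Bg k m).Reachable y z) :
    (W.Bg k m).dist x z ≤ (W.Bg k m).dist x y + (W.Bg k m).dist y z := by
  obtain ⟨g1, hg1⟩ := h1.exists_walk_length_eq_dist
  obtain ⟨g2, hg2⟩ := h2.exists_walk_length_eq_dist
  rw [← hg1, ← hg2, ← Walk.length_append]
  exact SimpleGraph.dist_le _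

theorem D_lip [Finite V] (k m : ℕ) {x y : V} (h : (W.Bg k m).Reachable x y) :
    (W.D k m y : ℤ) ≤ W.D k m x + (W.Bg k m).dist x y := by
  rcases (W.src k m x).eq_empty_or_nonempty with he | hne
  · have : W.D k m y = 0 := by
      have he' : W.src k m y = ∅ := by rw [← src_eq W h, he]
      unfold LWorld.D
      rw [he']
      simp
    rw [this]
    push_cast
    positivity
  · obtain ⟨y0, hy0, hD⟩ := exists_D W hne
    have h1 : W.D k m y ≤ (W.Bg k m).dist y y0 := D_le W (by rw [← src_eq W h]; exact hy0)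
    have h2 := dist_tri W h.symm hy0.1
    rw [SimpleGraph.dist_comm (u := y) (v := x)] at h2
    rw [hD]
    exact_mod_cast (by omega : W.D k m y ≤ (W.Bg k m).dist x y0 + (W.Bg k m).dist x y)

/-- the optimal path from `q` to the left end meets `L p` -/
theorem meet {k m : ℕ} {p q : V} (hp : p ∈ W.N) (hq : q ∈ W.N)
    (h : (W.Bg k m).Reachable p q) (hi : W.idx p ≤ W.idx q) :
    ∃ y0 ∈ W.src k m q, ∃ z ∈ W.L p, (W.Bg k m).Reachable q z ∧ (W.Bg k m).Reachable z y0 ∧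
      (W.Bg k m).dist q z + (W.Bg k m).dist z y0 ≤ W.D k m q := by
  classical
  obtain ⟨y0, hy0, hD⟩ := exists_D W (src_nonempty W (k := k) (m := m) hq)
  obtain ⟨g, hg⟩ := hy0.1.exists_walk_length_eq_dist
  obtain ⟨z, hz, hzL⟩ := W.sep p hp y0 hy0.2.1 q hq (hy0.2.2 p hp h.symm) hi
    (g.mapLe (Bg_le W k m)).reverse
  have hz' : z ∈ g.support := by
    rw [Walk.support_reverse, List.mem_reverse] at hz
    simpa [Walk.mapLe] using hz
  refine ⟨y0, hy0, z, hzL, ⟨g.takeUntil z hz'⟩, ⟨g.dropUntil z hz'⟩, ?_⟩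
  have h3 : (g.takeUntil z hz').length + (g.dropUntil z hz').length = g.length := by
    have := congrArg Walk.length (g.take_spec hz')
    rwa [Walk.length_append] at this
  have h1 := SimpleGraph.dist_le (g.takeUntil z hz')
  have h2 := SimpleGraph.dist_le (g.dropUntil z hz')
  omega

theorem D_T [Finite V] (k m : ℕ) {p q : V} (hp : p ∈ W.N) (hq : q ∈ W.N)
    (h : (W.Bg k m).Reachable p q) (hi : W.idx p ≤ W.idx q) :
    (W.D k m p : ℤ) + (W.Bg k m).dist p q ≤ W.D k m q + 2 * th k := by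
  obtain ⟨y0, hy0, z, hzL, hqz, hzy, hD⟩ := meet W hp hq h hi
  have hpz : (W.Bg k m).Reachable p z := h.trans hqz
  obtain ⟨-, h1⟩ := reach_of_L' W k m hp (W.mem_L p hp) hzL (bi_of_reach' W hpz)
  have h2 := abs_lt_of_bi W (bi_of_reach' W hpz)
  have h3 : W.D k m p ≤ (W.Bg k m).dist p y0 := D_le W (by rw [src_eq W h]; exact hy0)
  have h4 := dist_tri W hpz hzy
  have h5 := dist_tri W hpz hqz.symm
  rw [SimpleGraph.dist_comm (u := z) (v := q)] at h5
  have h6 : (W.D k m p : ℤ) + (W.Bg k m).dist p q ≤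
      2 * (W.Bg k m).dist p z + ((W.Bg k m).dist q z + (W.Bg k m).dist z y0) := by
    exact_mod_cast (by omega : W.D k m p + (W.Bg k m).dist p q ≤
      2 * (W.Bg k m).dist p z + ((W.Bg k m).dist q z + (W.Bg k m).dist z y0))
  have h7 : ((W.Bg k m).dist q z : ℤ) + (W.Bg k m).dist z y0 ≤ W.D k m q := by exact_mod_cast hD
  linarith

theorem D_M [Finite V] (k m : ℕ) {q y : V} (hq : q ∈ W.N) (hy : y ∈ W.N)
    (h : (W.Bg k m).Reachable q y) (hi : W.idx q ≤ W.idx y) :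
    (W.D k m q : ℤ) ≤ W.D k m y + |W.u q - W.u y| := by
  obtain ⟨y0, hy0, z, hzL, hyz, hzy, hD⟩ := meet W hq hy h hi
  have hqz : (W.Bg k m).Reachable q z := h.trans hyz
  obtain ⟨-, h1⟩ := reach_of_L' W k m hq (W.mem_L q hq) hzL (bi_of_reach' W hqz)
  have h3 : W.D k m q ≤ (W.Bg k m).dist q y0 := D_le W (by rw [src_eq W h]; exact hy0)
  have h4 := dist_tri W hqz hzy
  have h5 := abs_u_le_dist W hyz
  have h6 : (W.D k m q : ℤ) ≤ (W.Bg k m).dist q z + (W.Bg k m).dist z y0 := by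
    exact_mod_cast h3.trans h4
  have h7 : ((W.Bg k m).dist y z : ℤ) + (W.Bg k m).dist z y0 ≤ W.D k m y := by exact_mod_cast hD
  have h8 : |W.u q - W.u z| ≤ |W.u q - W.u y| + |W.u y - W.u z| := abs_sub_le _ _ _
  linarith

/-! ### r1 -/

theorem reach_of_walk (k m : ℕ) {x y : V} (g : W.G.Walk x y)
    (h : ∀ z ∈ g.support, W.bi k m z = W.bi k m x) :
    (W.Bg k m).Reachable x y ∧ (W.Bg k m).dist x y ≤ g.length := reach_of_walk' W k m g h

theorem bi_of_reach (k m : ℕ) {x y : V} (h : (W.Bg k m).Reachable x y) :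
    W.bi k m x = W.bi k m y ∧ W.G.dist x y ≤ (W.Bg k m).dist x y := by
  refine ⟨bi_of_reach' W h, ?_⟩
  obtain ⟨g, hg⟩ := h.exists_walk_length_eq_dist
  have := SimpleGraph.dist_le (g.mapLe (Bg_le W k m))
  rw [Walk.length_map, hg] at this
  exact this

theorem reach_of_L (k m : ℕ) {p a b : V} (hp : p ∈ W.N) (ha : a ∈ W.L p) (hb : b ∈ W.L p)
    (h : W.bi k m a = W.bi k m b) :
    (W.Bg k m).Reachable a b ∧ ((W.Bg k m).dist a b : ℤ) ≤ |W.u a - W.u b| :=
  reach_of_L' W k m hp ha hb h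

theorem exists_mid (k : ℕ) (z : V) : ∃ m < 16, W.mid k m z := by
  have hP : (0 : ℤ) < 2 ^ k := by positivity
  set A := W.u z / 2 ^ k with hA
  set t := W.u z % 2 ^ k with ht
  have h1 : 2 ^ k * A + t = W.u z := by
    rw [hA, ht]; exact Int.mul_ediv_add_emod _ _
  have h2 : 0 ≤ t := Int.emod_nonneg _ hP.ne'
  have h3 : t < 2 ^ k := Int.emod_lt_of_pos _ hP
  have h4 : 0 ≤ (4 - A) % 16 := Int.emod_nonneg _ (by norm_num)
  have h5 : (4 - A) % 16 < 16 := Int.emod_lt_of_pos _ (by norm_num)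
  refine ⟨((4 - A) % 16).toNat, by omega, ?_⟩
  have h6 : (((4 - A) % 16).toNat : ℤ) = (4 - A) % 16 := Int.toNat_of_nonneg h4
  have h7 : W.pos k ((4 - A) % 16).toNat z = 4 * 2 ^ k + t := by
    unfold LWorld.pos th
    rw [h6]
    have h8 : ∃ q : ℤ, A + (4 - A) % 16 = 16 * q + 4 := ⟨(A + (4 - A) % 16) / 16, by omega⟩
    obtain ⟨q, hq⟩ := h8
    have h9 : W.u z + (4 - A) % 16 * 2 ^ k = (4 * 2 ^ k + t) + q * (16 * 2 ^ k) := by
      rw [← h1]
      linear_combination (2 ^ k : ℤ) * hq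
    rw [h9, Int.add_mul_emod_self_right]
    exact Int.emod_eq_of_lt (by positivity) (by linarith)
  unfold LWorld.mid
  rw [h7]
  constructor <;> linarith

end Vale.Agent.P235.STO.H119
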