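import Vale.Agent.P235.ST.H119.Bumps
import Vale.Agent.P235.ST.H183.PartB
import Vale.Agent.P235.ST.H200.Cut
import Vale.Agent.P235.ST.H548.Core
import Vale.Agent.P235.ST.H548.Top

/-! P235: planar graphs embed into L₁ with constant distortion (assembly, helper119). -/

namespace Vale.Agent.P235.STO.H119

open SimpleGraph Vale.Agent.P235

theorem partB {V : Type} [Fintype V] (W : LWorld V) : ∃ (Ω : Type) (_ : Fintype Ω)
    (_ : Nonempty Ω) (w : Ω → V → ℝ),
    (∀ x y, W.G.Adj x y → ∑ o, |w o x - w o y| ≤ Fintype.card Ω) ∧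
    ∀ x ∈ W.N, ∀ y ∈ W.N, 2 ^ 92 ≤ W.d x y →
      Fintype.card Ω * (1 / 2 ^ 190 * W.d x y) ≤ ∑ o, |w o x - w o y| :=
  H183.partB W (fun h => bumps W h)
    (fun hρ hw h1 h2 => H200.inv_step_of W (stretch_all W) hρ hw h1 h2)

/-- **planar graphs have bounded `c₁`** -/
theorem planar : ∃ K : ℝ, ∀ (V : Type) [Finite V] (G : SimpleGraph V), G.Connected →
    (∃ σ : Equiv.Perm G.Dart, PlaneMap G σ) → DistortionLE G K :=
  H548.planar_of_core (by positivity) (H548.core1 (fun _ _ W => partB W))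

/-- planar graphs; genus `g` and `t` apices -/
theorem planar_near : ∃ C : ℝ, 1 ≤ C ∧
    (∀ (V : Type) [Finite V] (G : SimpleGraph V), G.Connected →
      (∃ σ : Equiv.Perm G.Dart, PlaneMap G σ) → DistortionLE G C) ∧
    ∀ (n g t : ℕ) (V : Type) [Finite V] (G : SimpleGraph V), G.Connected → NearSurf n g t V G →
      DistortionLE G (C * (1 + Real.log (g + 2) + Real.log (t + 2))) :=
  H548.near_of_core (by positivity) (H548.core1 (fun _ _ W => partB W))

end Vale.Agent.P235.STO.H119
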