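import Vale.Agent.P235.ST.H119.Clock
import Vale.Agent.P235.ST.H317.Defs2
import Vale.Agent.P235.ST.H611.Cost
import Vale.Agent.P235.ST.H188.RowsPlan
import Vale.Agent.P235.ST.H317.R12

/-! P235, (ST) O(1): row r11 (`stretch`). helper119. -/

namespace Vale.Agent.P235.STO.H119

open SimpleGraph

variable {V : Type}

/-! ### costs -/

theorem cost_nonneg {G : SimpleGraph V} (w : V → ℝ) {x y : V} (p : G.Walk x y) :
    0 ≤ cost w p := by
  induction p with
  | nil => simp [cost]
  | cons h p ih => simp only [cost]; positivity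

theorem cost_append {G : SimpleGraph V} (w : V → ℝ) {x y z : V} (p : G.Walk x y)
    (q : G.Walk y z) : cost w (p.append q) = cost w p + cost w q := by
  induction p with
  | nil => simp [cost]
  | cons h p ih => simp only [Walk.cons_append, cost, ih]; ring

theorem abs_le_cost {G : SimpleGraph V} (w : V → ℝ) {x y : V} (p : G.Walk x y) :
    |w y - w x| ≤ cost w p := by
  induction p with
  | nil => simp [cost]
  | @cons a b c h p ih =>
    simp only [cost]
    have : |w c - w a| ≤ |w c - w b| + |w b - w a| := abs_sub_le _ _ _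
    rw [abs_sub_comm (w b) (w a)] at this
    linarith

theorem cost_take_le {G : SimpleGraph V} [DecidableEq V] (w : V → ℝ) {x y v : V}
    (p : G.Walk x y) (h : v ∈ p.support) : cost w (p.takeUntil v h) ≤ cost w p := by
  have h1 := cost_append w (p.takeUntil v h) (p.dropUntil v h)
  rw [p.take_spec h] at h1
  have := cost_nonneg w (p.dropUntil v h)
  linarith

/-! ### metric -/

section metric

variable (W : LWorld V)

theorem d_nonneg (x y : V) : 0 ≤ W.d x y := by unfold LWorld.d; positivity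

theorem d_comm (x y : V) : W.d x y = W.d y x := by
  unfold LWorld.d; rw [SimpleGraph.dist_comm]

theorem d_tri (x y z : V) : W.d x z ≤ W.d x y + W.d y z := by
  unfold LWorld.d
  exact_mod_cast W.conn.dist_triangle

theorem abs_u_le_d (x y : V) : |(W.u x : ℝ) - W.u y| ≤ W.d x y := by
  obtain ⟨g, hg⟩ := (W.conn.preconnected x y).exists_walk_length_eq_dist
  have := abs_u_le W g
  rw [hg] at this
  unfold LWorld.d
  exact_mod_cast this

theorem d_L {p a b : V} (hp : p ∈ W.N) (ha : a ∈ W.L p) (hb : b ∈ W.L p) :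
    W.d a b ≤ |(W.u a : ℝ) - W.u b| := by
  wlog hab : W.u a ≤ W.u b generalizing a b
  · rw [d_comm, abs_sub_comm]; exact this hb ha (le_of_not_ge hab)
  obtain ⟨g, hg, -⟩ := W.L_path p hp a ha b hb hab
  have h1 : (W.G.dist a b : ℤ) ≤ W.u b - W.u a := by
    rw [← hg]; exact_mod_cast SimpleGraph.dist_le g
  have h2 : (W.G.dist a b : ℝ) ≤ (W.u b : ℝ) - W.u a := by exact_mod_cast h1
  rw [abs_sub_comm]
  exact h2.trans (le_abs_self _)

end metric

/-! ### first stop -/

theorem first_stop {G : SimpleGraph V} {a b : V} (g : G.Walk a b)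
    (P : ∀ c, G.Walk a c → Prop)
    (hP : ∃ (c : V) (g1 : G.Walk a c) (g2 : G.Walk c b), g = g1.append g2 ∧ 0 < g1.length ∧
      P c g1) :
    ∃ (c : V) (g1 : G.Walk a c) (g2 : G.Walk c b), g = g1.append g2 ∧ 0 < g1.length ∧ P c g1 ∧
      ∀ (c' : V) (g1' : G.Walk a c') (g2' : G.Walk c' c), g1 = g1'.append g2' →
        0 < g1'.length → 0 < g2'.length → ¬ P c' g1' := by
  classical
  have hex : ∃ n, ∃ (c : V) (g1 : G.Walk a c) (g2 : G.Walk c b), g = g1.append g2 ∧
      0 < g1.length ∧ P c g1 ∧ g1.length = n := by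
    obtain ⟨c, g1, g2, h1, h2, h3⟩ := hP
    exact ⟨_, c, g1, g2, h1, h2, h3, rfl⟩
  obtain ⟨c, g1, g2, h1, h2, h3, h4⟩ := Nat.find_spec hex
  refine ⟨c, g1, g2, h1, h2, h3, fun c' g1' g2' h5 h6 h7 h8 => ?_⟩
  have hlt : g1'.length < Nat.find hex := by
    rw [← h4, h5, Walk.length_append]; omega
  exact Nat.find_min hex hlt ⟨c', g1', g2'.append g2, by rw [h1, h5, Walk.append_assoc], h6, h8, rfl⟩

theorem takeUntil_pos {G : SimpleGraph V} [DecidableEq V] {a b v : V} (g : G.Walk a b)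
    (h : v ∈ g.support) (hne : v ≠ a) : 0 < (g.takeUntil v h).length := by
  rcases Nat.eq_zero_or_pos (g.takeUntil v h).length with h0 | h0
  · exact absurd (Walk.eq_of_length_eq_zero h0).symm hne
  · exact h0

theorem dropUntil_pos {G : SimpleGraph V} [DecidableEq V] {a b v : V} (g : G.Walk a b)
    (h : v ∈ g.support) (hne : v ≠ b) : 0 < (g.dropUntil v h).length := by
  rcases Nat.eq_zero_or_pos (g.dropUntil v h).length with h0 | h0
  · exact absurd (Walk.eq_of_length_eq_zero h0) hne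
  · exact h0

/-! ### r11 -/

variable (W : LWorld V)

/-- position of a nearby vertex -/
theorem pos_near {k m : ℕ} {x y : V} {lo hi e : ℤ} (h1 : lo ≤ W.pos k m x)
    (h2 : W.pos k m x ≤ hi) (h3 : |W.u y - W.u x| ≤ e) (hlo : 0 ≤ lo - e)
    (hhi : hi + e < 16 * 2 ^ k) :
    W.bi k m y = W.bi k m x ∧ lo - e ≤ W.pos k m y ∧ W.pos k m y ≤ hi + e := by
  unfold LWorld.pos LWorld.bi th at *
  have hp : (0 : ℤ) < 16 * 2 ^ k := by positivity
  rw [abs_le] at h3
  set A := W.u x + m * 2 ^ k with hA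
  have hB : W.u y + m * 2 ^ k = A + (W.u y - W.u x) := by rw [hA]; ring
  rw [hB]
  have e1 := Int.emod_add_mul_ediv A (16 * 2 ^ k)
  set r := A % (16 * 2 ^ k)
  set q := A / (16 * 2 ^ k)
  have e2 : A + (W.u y - W.u x) = (r + (W.u y - W.u x)) + 16 * 2 ^ k * q := by linarith
  have e3 : 0 ≤ r + (W.u y - W.u x) := by linarith [h3.1]
  have e4 : r + (W.u y - W.u x) < 16 * 2 ^ k := by linarith [h3.2]
  rw [e2, Int.add_mul_emod_self_left, Int.add_mul_ediv_left _ _ hp.ne', Int.emod_eq_of_lt e3 e4,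
    Int.ediv_eq_zero_of_lt e3 e4]
  exact ⟨by ring, by linarith [h3.1], by linarith [h3.2]⟩

/-- a vertex near `x` (walk distance) is in the same component -/
theorem reach_near {k m : ℕ} {x y : V} {lo hi e : ℤ} (h1 : lo ≤ W.pos k m x)
    (h2 : W.pos k m x ≤ hi) (h3 : (W.G.dist x y : ℤ) ≤ e) (hlo : 0 ≤ lo - e)
    (hhi : hi + e < 16 * 2 ^ k) :
    (W.Bg k m).Reachable x y ∧ (W.Bg k m).dist x y ≤ W.G.dist x y := by
  classical
  obtain ⟨g, hg⟩ := (W.conn.preconnected x y).exists_walk_length_eq_dist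
  have h := reach_of_walk W k m g (fun z hz => by
    have h4 := abs_u_le W (g.takeUntil z hz)
    have h5 := g.length_takeUntil_le_length hz
    have h6 : |W.u z - W.u x| ≤ e := by
      rw [abs_sub_comm]
      have : ((g.takeUntil z hz).length : ℤ) ≤ W.G.dist x y := by rw [← hg]; exact_mod_cast h5
      linarith
    exact (pos_near W h1 h2 h6 hlo hhi).1)
  rw [hg] at h
  exact h

variable [Fintype V]

/-- everything about the centre `(z, y)` at `a` -/
theorem centre {ρ : V → ℝ} (hρ : W.Scale ρ) {p a b : V} {k m : ℕ}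
    (g : W.G.Walk a b) (m16 : m < 16) (big : 2 ^ 100 ≤ ρ p)
    (lo : 64 * d1 * ρ p ≤ (th k : ℝ)) (hi : (th k : ℝ) ≤ (2 / 3) * dl * ρ p)
    (ball : ∀ z ∈ g.support, W.d p z ≤ kap * ρ p / 4 + 1)
    (band : ∀ z ∈ g.support, 6 * 2 ^ k ≤ W.pos k m z ∧ W.pos k m z ≤ 9 * 2 ^ k)
    (same : ∀ z ∈ g.support, W.bi k m z = W.bi k m a)
    (haN : a ∈ W.N) (hpos : 0 < W.nxt ρ a) :
    ∃ (z y : V) (t : ℝ), z ∈ W.N ∧ y ∈ W.N ∧ 0 < t ∧ W.u z = W.u y ∧ W.d z y = t ∧
      W.nxt ρ a ≤ t ∧ W.d a z ≤ kap * t ∧ t ≤ 32 * d1 * ρ p ∧ W.idx a < W.idx y ∧ a ∉ W.L y ∧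
      ∀ c ∈ g.support, c ∈ W.N → W.idx c ≤ W.idx y →
        (W.D k m c : ℝ) ≤ W.D k m a + |(W.u c : ℝ) - W.u z| + (cp + kap) * t := by
  classical
  obtain ⟨z, y, hu, hat⟩ := H188.nxt_attain W hpos
  have ht2 := H188.uns_le W hρ hu
  obtain ⟨hzN, hyN, huz, hidx, hr0, h2t, hserve⟩ := hu
  set t := W.d z y with ht
  have hkap : kap = 1 / 2 ^ 22 := rfl
  have hd1 : d1 = 1 / 2 ^ 100 := rfl
  have hdl : dl = 1 / 2 ^ 25 := rfl
  have hcp : cp = 1 / 2 ^ 21 := rfl
  have hr0' : r0 = 2 ^ 90 := rfl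
  have ht0 : 0 < t := by rw [hr0'] at hr0; linarith [pow_pos (two_pos (α := ℝ)) 90]
  have hdaz : W.d a z ≤ kap * t := by
    have h1 : W.d a z / kap ≤ t := by linarith
    rw [hkap] at h1 ⊢
    rw [div_le_iff₀ (by norm_num)] at h1
    linarith
  have hra : W.nxt ρ a ≤ t := by
    have : 0 ≤ W.d a z / kap := div_nonneg (d_nonneg W _ _) (by rw [hkap]; norm_num)
    linarith
  have hasup : a ∈ g.support := g.start_mem_support
  have hdpz : W.d p z ≤ kap * ρ p / 4 + 1 + kap * t := by
    have := d_tri W p a z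
    have := ball a hasup
    linarith
  have hlip := hρ.lip p z
  have hlip' : |ρ p - ρ z| ≤ ρ p / 4 + 2 ^ 22 + t := by
    refine hlip.trans ?_
    rw [hkap] at hdpz ⊢
    rw [div_le_iff₀ (by norm_num)]
    nlinarith
  rw [abs_le] at hlip'
  have hup : ρ z ≤ 13 / 10 * ρ p := by
    rw [hd1] at ht2
    norm_num at ht2 big
    linarith [hlip'.1]
  have hdn : 7 / 10 * ρ p ≤ ρ z := by
    rw [hd1] at ht2
    norm_num at ht2 big
    linarith [hlip'.2]
  have htR : t ≤ 21 * d1 * ρ p := by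
    rw [hd1] at ht2 ⊢
    linarith
  have hth : (th k : ℝ) = 16 * 2 ^ k := by unfold th; push_cast; ring
  have htk : t ≤ 21 / 64 * (th k : ℝ) := by
    rw [hd1] at htR lo
    linarith
  -- distances are small in integers
  have hdist : (W.G.dist a z : ℤ) ≤ 2 ^ k := by
    have h1 : (W.G.dist a z : ℝ) ≤ 2 ^ k := by
      have h2 : W.d a z ≤ kap * t := hdaz
      unfold LWorld.d at h2
      rw [hth] at htk
      rw [hkap] at h2
      have : (0:ℝ) < 2 ^ k := by positivity
      linarith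
    exact_mod_cast h1
  have hP : (0 : ℤ) < 2 ^ k := by positivity
  obtain ⟨hb1, hb2⟩ := band a hasup
  have hreach := reach_near W hb1 hb2 hdist (by linarith) (by linarith)
  have huaz : |W.u z - W.u a| ≤ 2 ^ k := by
    have h1 := abs_u_le_d W z a
    have h2 : W.d z a ≤ 2 ^ k := by
      rw [d_comm]; unfold LWorld.d; exact_mod_cast hdist
    have h3 := h1.trans h2
    exact_mod_cast h3
  have hposz := pos_near W hb1 hb2 huaz (by linarith) (by linarith)
  have hmid : W.mid k m z := ⟨by linarith [hposz.2.1], by linarith [hposz.2.2]⟩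
  have hin : inList (ρ z) k := by
    constructor
    · rw [hd1] at lo ⊢
      have : 0 ≤ ρ p := hρ.nonneg p
      linarith
    · rw [hdl] at hi ⊢
      have : 0 ≤ ρ p := hρ.nonneg p
      linarith
  have hns := hserve k m m16 hin
  unfold LWorld.serves at hns
  have hns2 : (W.Bg k m).Reachable z y ∧ (W.D k m y : ℝ) - (W.D k m z : ℝ) < cp * t := by
    by_contra hcon
    apply hns
    refine ⟨hmid, ?_⟩
    by_cases hR : (W.Bg k m).Reachable z y
    · right
      by_contra hlt
      exact hcon ⟨hR, not_le.1 hlt⟩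
    · left; exact hR
  -- the centre lies to the left of `L y`
  have hLy : ∀ v ∈ W.L y, W.d z v ≤ kap * t → False := by
    intro v hv hzv
    have h1 := d_tri W z v y
    have h2 := d_L W hyN hv (W.mem_L y hyN)
    have h3 : |(W.u v : ℝ) - W.u y| ≤ kap * t := by
      rw [← huz, abs_sub_comm]
      exact (abs_u_le_d W z v).trans hzv
    rw [← ht] at h1
    rw [hkap] at h3 hzv
    linarith
  have haL : a ∉ W.L y := fun h => hLy a h (by rw [d_comm]; exact hdaz)
  have hidxa : W.idx a < W.idx y := by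
    by_contra hcon
    rw [not_lt] at hcon
    obtain ⟨g', hg'⟩ := (W.conn.preconnected z a).exists_walk_length_eq_dist
    obtain ⟨v, hv, hvL⟩ := W.sep y hyN z hzN a haN hidx hcon g'
    refine hLy v hvL ?_
    have h1 : W.G.dist z v ≤ W.G.dist z a := by
      rw [← hg']
      exact (SimpleGraph.dist_le _).trans (g'.length_takeUntil_le_length hv)
    have h2 : W.d z v ≤ W.d z a := by unfold LWorld.d; exact_mod_cast h1
    rw [d_comm W z a] at h2
    linarith
  refine ⟨z, y, t, hzN, hyN, ht0, huz, rfl, hra, hdaz, ?_, hidxa, haL, ?_⟩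
  · rw [hd1] at htR ⊢
    have : 0 ≤ ρ p := hρ.nonneg p
    linarith
  · intro c hc hcN hidc
    have hac : (W.Bg k m).Reachable a c := (reach_of_walk W k m (g.takeUntil c hc) (fun v hv =>
      same v (g.support_takeUntil_subset_support hc hv))).1
    have hcy : (W.Bg k m).Reachable c y := (hac.symm.trans hreach.1).trans hns2.1
    have h1 : (W.D k m c : ℝ) ≤ W.D k m y + |(W.u c : ℝ) - W.u y| := by
      exact_mod_cast D_M W k m hcN hyN hcy hidc
    have h2 : (W.D k m z : ℝ) ≤ W.D k m a + (W.Bg k m).dist a z := by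
      exact_mod_cast D_lip W k m hreach.1
    have h3 : ((W.Bg k m).dist a z : ℝ) ≤ W.d a z := by
      unfold LWorld.d; exact_mod_cast hreach.2
    rw [← huz] at h1
    linarith [hns2.2]

/-- row r11 -/
theorem stretch {ρ w : V → ℝ} (hρ : W.Scale ρ) (hw : W.Inv (W.nxt ρ) w) {p a b : V} {k m : ℕ}
    (g : W.G.Walk a b) (hg : g.IsPath) (hr : W.Reg ρ p k m g) (ha : a ∈ W.N) (hb : b ∈ W.N)
    (hne : a ≠ b) :
    (W.D k m b : ℝ) ≤ W.D k m a + (5 / 4) * cost w g + 64 * d1 * ρ p ∨
    ∃ (c : V) (g1 : W.G.Walk a c) (g2 : W.G.Walk c b), g = g1.append g2 ∧ 0 < g1.length ∧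
      c ∈ W.N ∧ (W.D k m c : ℝ) ≤ W.D k m a + (5 / 4) * cost w g1 := by
  classical
  have hρ' : W.Scale (W.nxt ρ) := H188.nxt_scale W ρ
  by_cases hS : W.nxt ρ a ≤ 4 / kap
  · -- hop to the next lined vertex
    right
    obtain ⟨c, g1, g2, hgg, hpos, hcN, hmin⟩ := first_stop g (fun c _ => c ∈ W.N)
      ⟨b, g, Walk.nil, by simp, by
        rcases Nat.eq_zero_or_pos g.length with h0 | h0
        · exact absurd (Walk.eq_of_length_eq_zero h0) hne
        · exact h0, hb⟩
    refine ⟨c, g1, g2, hgg, hpos, hcN, ?_⟩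
    have hg1 : g1.IsPath := by rw [hgg] at hg; exact hg.of_append_left
    have hin : ∀ z ∈ g1.support, z ≠ a → z ≠ c → z ∉ W.N := by
      intro z hz hza hzc
      exact hmin z (g1.takeUntil z hz) (g1.dropUntil z hz) (g1.take_spec hz).symm
        (takeUntil_pos g1 hz hza) (dropUntil_pos g1 hz hzc)
    have h1 := H611.hop_cost W hρ' hw g1 hg1 hin hS
    have hsame : ∀ v ∈ g1.support, W.bi k m v = W.bi k m a := by
      intro v hv
      exact hr.same v (by rw [hgg, Walk.mem_support_append_iff]; exact Or.inl hv)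
    obtain ⟨h2, h3⟩ := reach_of_walk W k m g1 hsame
    have h4 : (W.D k m c : ℝ) ≤ W.D k m a + (W.Bg k m).dist a c := by
      exact_mod_cast D_lip W k m h2
    have h5 : ((W.Bg k m).dist a c : ℝ) ≤ g1.length := by exact_mod_cast h3
    linarith
  · rw [not_le] at hS
    have hkp : (0 : ℝ) < kap := by unfold kap; positivity
    have hpos : 0 < W.nxt ρ a := lt_trans (by positivity) hS
    obtain ⟨z, y, t, hzN, hyN, ht0, huz, hdzy, hra, hdaz, htR, hidxa, haL, hup⟩ :=
      centre W hρ g hr.m16 hr.big hr.lo hr.hi hr.ball hr.band hr.same ha hpos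
    have hkap : kap = 1 / 2 ^ 22 := rfl
    have hd1 : d1 = 1 / 2 ^ 100 := rfl
    have hcp : cp = 1 / 2 ^ 21 := rfl
    have he1 : e1 = 1 / 2 ^ 120 := rfl
    have hc2 : c2 = 1 / 2 ^ 10 := rfl
    have hC1 : C1 = 2 ^ 11 := rfl
    have huaz : |(W.u a : ℝ) - W.u z| ≤ kap * t := (abs_u_le_d W a z).trans hdaz
    by_cases hstop : ∃ (c : V) (g1 : W.G.Walk a c) (g2 : W.G.Walk c b), g = g1.append g2 ∧
        0 < g1.length ∧ (c ∈ W.N ∧ (c ∈ W.L y ∨ ∃ v ∈ g1.support,
          t / 2 ^ 14 ≤ |(W.u v : ℝ) - W.u z|))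
    · right
      obtain ⟨c, g1, g2, hgg, hpos1, ⟨hcN, hc⟩, hmin⟩ := first_stop g
        (fun c g1 => c ∈ W.N ∧ (c ∈ W.L y ∨ ∃ v ∈ g1.support,
          t / 2 ^ 14 ≤ |(W.u v : ℝ) - W.u z|)) hstop
      refine ⟨c, g1, g2, hgg, hpos1, hcN, ?_⟩
      have hcs : c ∈ g.support := by
        rw [hgg, Walk.mem_support_append_iff]; exact Or.inl g1.end_mem_support
      have hidc : W.idx c ≤ W.idx y := by
        by_contra hcon
        rw [not_le] at hcon
        obtain ⟨v, hv, hvL⟩ := W.sep y hyN a ha c hcN hidxa.le hcon.le g1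
        have hva : v ≠ a := fun h => haL (h ▸ hvL)
        have hvc : v ≠ c := fun h => absurd (W.L_sub y hyN c (h ▸ hvL)).2 (not_le.2 hcon)
        exact hmin v (g1.takeUntil v hv) (g1.dropUntil v hv) (g1.take_spec hv).symm
          (takeUntil_pos g1 hv hva) (dropUntil_pos g1 hv hvc)
          ⟨(W.L_sub y hyN v hvL).1, Or.inl hvL⟩
      have hD := hup c hcs hcN hidc
      have hcost0 := cost_nonneg w g1
      rw [hcp, hkap] at hD
      rw [hkap] at huaz
      by_cases hdev : ∃ v ∈ g1.support, t / 2 ^ 14 ≤ |(W.u v : ℝ) - W.u z|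
      · obtain ⟨v, hv, hvt⟩ := hdev
        have h1 := H611.vert W hρ' hw g1
        have h2 := H611.vert W hρ' hw (g1.takeUntil v hv)
        have h3 := cost_take_le w g1 hv
        have h4 : |(W.u v : ℝ) - W.u z| ≤ |(W.u v : ℝ) - W.u a| + |(W.u a : ℝ) - W.u z| :=
          abs_sub_le _ _ _
        have h5 : |(W.u c : ℝ) - W.u z| ≤ |(W.u c : ℝ) - W.u a| + |(W.u a : ℝ) - W.u z| :=
          abs_sub_le _ _ _
        rw [he1] at h1 h2
        linarith
      · have hcL : c ∈ W.L y := by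
          rcases hc with hc | hc
          · exact hc
          · exact absurd hc hdev
        have hdc : |(W.u c : ℝ) - W.u z| < t / 2 ^ 14 := by
          by_contra hcon
          exact hdev ⟨c, g1.end_mem_support, not_lt.1 hcon⟩
        have h1 : W.d z y ≤ W.d z a + W.d a c + W.d c y := by
          have := d_tri W z a y
          have := d_tri W a c y
          linarith
        have h2 : W.d c y ≤ |(W.u c : ℝ) - W.u z| := by
          have := d_L W hyN hcL (W.mem_L y hyN)
          rwa [← huz] at this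
        rw [d_comm W z a, hdzy] at h1
        rw [hkap] at hdaz
        have h3 : C1 * d1 * W.nxt ρ a ≤ W.d a c := by
          rw [hC1, hd1]
          linarith
        have h4 := hw.lb a c g1 h3
        rw [hc2] at h4
        linarith
    · left
      have hall : ∀ v ∈ g.support, v ∈ W.N → v ≠ a → v ∉ W.L y := by
        intro v hv hvN hva hvL
        exact hstop ⟨v, g.takeUntil v hv, g.dropUntil v hv, (g.take_spec hv).symm,
          takeUntil_pos g hv hva, hvN, Or.inl hvL⟩
      have hlen : 0 < g.length := by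
        rcases Nat.eq_zero_or_pos g.length with h0 | h0
        · exact absurd (Walk.eq_of_length_eq_zero h0) hne
        · exact h0
      have hidb : W.idx b ≤ W.idx y := by
        by_contra hcon
        rw [not_le] at hcon
        obtain ⟨v, hv, hvL⟩ := W.sep y hyN a ha b hb hidxa.le hcon.le g
        have hva : v ≠ a := fun h => haL (h ▸ hvL)
        exact hall v hv (W.L_sub y hyN v hvL).1 hva hvL
      have hub : |(W.u b : ℝ) - W.u z| < t / 2 ^ 14 := by
        by_contra hcon
        exact hstop ⟨b, g, Walk.nil, by simp, hlen, hb, Or.inr ⟨b, g.end_mem_support,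
          not_lt.1 hcon⟩⟩
      have hD := hup b g.end_mem_support hb hidb
      have hcost0 := cost_nonneg w g
      have hρp := hρ.nonneg p
      rw [hcp, hkap] at hD
      rw [hd1] at htR ⊢
      linarith

theorem stretch_all : H317.Stretch W := by
  intro ρ w hρ hw p a b k m g hg hr ha hb hne
  exact stretch W hρ hw g hg hr ha hb hne

/-- row r12 -/
theorem stretches {ρ w : V → ℝ} (hρ : W.Scale ρ) (hw : W.Inv (W.nxt ρ) w) {p a b : V}
    {k m : ℕ} (g : W.G.Walk a b) (hg : g.IsPath) (hr : W.Reg ρ p k m g) (ha : a ∈ W.N)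
    (hb : b ∈ W.N) :
    (W.D k m b : ℝ) ≤ W.D k m a + (5 / 4) * cost w g + 64 * d1 * ρ p :=
  H317.stretches_of W (stretch_all W) hρ hw g hg hr ha hb

end Vale.Agent.P235.STO.H119
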